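import Vale.Agent.P141.H483.Flow
import Mathlib.Analysis.Matrix.Order

/-!
# P141, line (A): the own functional with the sum weight

`R = B x * (B x')ᵀ` is the mixed Gram matrix of two copies, `G x` the potential of the copy `x`.

* `lyap_psd` : `M ≥ 0`, `p > 0` give `(M a b / (p a + p b)) ≥ 0`;
* `frac_conv` : the matrix fractional function is jointly convex;
* `os` : the own functional with the weight `w + G ⊗ 1 + 1 ⊗ G'`, `op` : the product weight;
* `os_conv` : monotone under the refinement of the middle cell;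
* `os_nonneg`, `dom` : monotone under the refinement of the outer cell, and the product weight is
  dominated, for all signs at once;
* `cross_le` : the cross term of the weighted pair functional.
-/

namespace Vale.Agent.P141.H383

open Matrix Finset
open scoped Kronecker

noncomputable section

open Vale.Agent.P141.H483 (exists_diag quad_nonneg quad_add tr_eq symm_dot dot_mulVec)

section lyap

variable {n : Type*} [Fintype n]

/-- the quadratic form as a double sum -/
theorem quad_sum (M : Matrix n n ℝ) (c : n → ℝ) :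
    c ⬝ᵥ M *ᵥ c = ∑ a, ∑ b, c a * c b * M a b := by
  simp only [dotProduct, mulVec, mul_sum]
  exact sum_congr rfl fun a _ => sum_congr rfl fun b _ => by ring

variable [DecidableEq n]

/-- **Lyapunov–Schur.** -/
theorem lyap_psd {M : Matrix n n ℝ} (hM : M.PosSemidef) {p : n → ℝ} (hp : ∀ a, 0 < p a) :
    (Matrix.of fun a b => M a b / (p a + p b)).PosSemidef := by
  set N : Matrix n n ℝ := Matrix.of fun a b => M a b / (p a + p b) with hN
  have hsym : ∀ a b, M a b = M b a := fun a b => by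
    have := congrFun (congrFun (tr_eq hM.isHermitian) b) a
    simpa using this
  have hNs : N.IsHermitian := by
    ext a b
    simp only [conjTranspose_apply, star_trivial, hN, of_apply]
    rw [hsym b a, add_comm]
  obtain ⟨U, d, h1, h2, h3⟩ := exists_diag hNs
  have hd : ∀ i, 0 ≤ d i := by
    intro i
    set v : n → ℝ := U *ᵥ (Pi.single i 1) with hv
    have hv0 : v ≠ 0 := by
      intro h0
      have : Uᵀ *ᵥ (U *ᵥ (Pi.single i (1 : ℝ))) = 0 := by rw [← hv, h0, mulVec_zero]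
      rw [mulVec_mulVec, h1, one_mulVec] at this
      have := congrFun this i
      simp at this
    have e1 : N *ᵥ v = d i • v := by
      rw [hv]
      conv_lhs => rw [h3]
      rw [mulVec_mulVec, Matrix.mul_assoc, Matrix.mul_assoc, h1, Matrix.mul_one,
        ← mulVec_mulVec, ← mulVec_smul]
      congr 1
      ext j
      by_cases hj : j = i
      · subst hj; simp [mulVec_diagonal]
      · simp [mulVec_diagonal, hj]
    have e2 : v ⬝ᵥ M *ᵥ v = 2 * d i * ∑ a, p a * v a ^ 2 := by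
      have h5 : ∀ a b, M a b = N a b * p a + N b a * p b := fun a b => by
        have hne : p a + p b ≠ 0 := (add_pos (hp a) (hp b)).ne'
        have hne' : p b + p a ≠ 0 := (add_pos (hp b) (hp a)).ne'
        simp only [hN, of_apply]
        rw [hsym b a]
        field_simp
        ring
      have h6 : ∀ a, ∑ b, N a b * v b = d i * v a := fun a => by
        have := congrFun e1 a
        simpa [mulVec, dotProduct] using this
      rw [quad_sum]
      calc ∑ a, ∑ b, v a * v b * M a b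
          = ∑ a, ∑ b, (v a * p a * (N a b * v b) + v b * p b * (N b a * v a)) :=
            sum_congr rfl fun a _ => sum_congr rfl fun b _ => by rw [h5 a b]; ring
        _ = ∑ a, v a * p a * ∑ b, N a b * v b + ∑ b, v b * p b * ∑ a, N b a * v a := by
            simp only [sum_add_distrib, mul_sum]
            congr 1
            rw [sum_comm]
        _ = 2 * d i * ∑ a, p a * v a ^ 2 := by
            simp only [h6, mul_sum]
            rw [← sum_add_distrib]
            exact sum_congr rfl fun a _ => by ring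
    have e3 : 0 ≤ v ⬝ᵥ M *ᵥ v := quad_nonneg hM v
    have e4 : 0 < ∑ a, p a * v a ^ 2 := by
      obtain ⟨a, ha⟩ : ∃ a, v a ≠ 0 := by
        by_contra hc
        push Not at hc
        exact hv0 (funext hc)
      exact sum_pos' (fun b _ => mul_nonneg (hp b).le (sq_nonneg _))
        ⟨a, mem_univ a, mul_pos (hp a) (by positivity)⟩
    rw [e2] at e3
    by_contra hneg
    push Not at hneg
    nlinarith [mul_neg_of_neg_of_pos hneg e4]
  refine PosSemidef.of_dotProduct_mulVec_nonneg hNs fun x => ?_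
  simp only [star_trivial]
  have e5 : x ⬝ᵥ N *ᵥ x = ∑ i, d i * ((Uᵀ *ᵥ x) i) ^ 2 := by
    rw [h3, ← mulVec_mulVec, ← mulVec_mulVec, dot_mulVec U]
    simp only [dotProduct, mulVec_diagonal]
    exact sum_congr rfl fun i _ => by ring
  rw [e5]
  exact sum_nonneg fun i _ => mul_nonneg (hd i) (sq_nonneg _)

/-- **The matrix fractional function is jointly convex.** -/
theorem frac_conv {K L : Matrix n n ℝ} (hK : K.PosDef) (hp : (K + L).PosDef)
    (hm : (K - L).PosDef) (r e : n → ℝ) :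
    r ⬝ᵥ K⁻¹ *ᵥ r ≤ (1 / 2) * ((r + e) ⬝ᵥ (K + L)⁻¹ *ᵥ (r + e) +
      (r - e) ⬝ᵥ (K - L)⁻¹ *ᵥ (r - e)) := by
  set y : n → ℝ := K⁻¹ *ᵥ r with hy
  have hKy : K *ᵥ y = r := by
    rw [hy, mulVec_mulVec, mul_nonsing_inv _ hK.det_pos.ne'.isUnit, one_mulVec]
  have h1 := Vale.Agent.P141.H483.cs_inv hp y (r + e) one_pos 1 (by norm_num)
  have h2 := Vale.Agent.P141.H483.cs_inv hm y (r - e) one_pos 1 (by norm_num)
  have h3 : y ⬝ᵥ (K + L) *ᵥ y + y ⬝ᵥ (K - L) *ᵥ y = 2 * (y ⬝ᵥ r) := by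
    rw [add_mulVec, sub_mulVec, hKy, dotProduct_add, dotProduct_sub]
    ring
  have h4 : y ⬝ᵥ (r + e) + y ⬝ᵥ (r - e) = 2 * (y ⬝ᵥ r) := by
    rw [dotProduct_add, dotProduct_sub]
    ring
  have h5 : r ⬝ᵥ K⁻¹ *ᵥ r = y ⬝ᵥ r := dotProduct_comm _ _
  rw [h5]
  simp only [mul_one, one_mul, inv_one] at h1 h2
  linarith

end lyap

variable {ι : Type*} [Fintype ι] [DecidableEq ι]

/-- the sum weight `w + G ⊗ 1 + 1 ⊗ G'` -/
def KS (w : ℝ) (G G' : Matrix ι ι ℝ) : Matrix (ι × ι) (ι × ι) ℝ :=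
  w • (1 : Matrix (ι × ι) (ι × ι) ℝ) + G ⊗ₖ (1 : Matrix ι ι ℝ) + (1 : Matrix ι ι ℝ) ⊗ₖ G'

/-- a matrix as a vector -/
def vc (R : Matrix ι ι ℝ) : ι × ι → ℝ := fun q => R q.1 q.2

/-- the own functional of the pair of copies, sum weight -/
def os (w : ℝ) (G G' R : Matrix ι ι ℝ) : ℝ := vc R ⬝ᵥ (KS w G G')⁻¹ *ᵥ vc R

/-- the own functional of the pair of copies, product weight -/
def op (w : ℝ) (G G' R : Matrix ι ι ℝ) : ℝ :=
  (Rᵀ * (w • (1 : Matrix ι ι ℝ) + G)⁻¹ * R * (w • (1 : Matrix ι ι ℝ) + G')⁻¹).trace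

theorem KS_add (w : ℝ) (G G' D D' : Matrix ι ι ℝ) :
    KS w (G + D) (G' + D') = KS w G G' + KS 0 D D' := by
  unfold KS
  rw [add_kronecker, kronecker_add, zero_smul]
  abel

theorem KS_sub (w : ℝ) (G G' D D' : Matrix ι ι ℝ) :
    KS w (G - D) (G' - D') = KS w G G' - KS 0 D D' := by
  have h := KS_add w (G - D) (G' - D') D D'
  rw [sub_add_cancel, sub_add_cancel] at h
  rw [h]
  abel

theorem KS_posDef {w : ℝ} (hw : 0 < w) {G G' : Matrix ι ι ℝ} (hG : G.PosSemidef)
    (hG' : G'.PosSemidef) : (KS w G G').PosDef := by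
  unfold KS
  exact ((PosDef.one.smul hw).add_posSemidef (hG.kronecker PosSemidef.one)).add_posSemidef
    (PosSemidef.one.kronecker hG')

/-- **Monotone in the middle cell**: `G ± D`, `G' ± D'`, `R ± E` are the values on the two
halves. -/
theorem os_conv {w : ℝ} (hw : 0 < w) {G G' D D' : Matrix ι ι ℝ}
    (hG : G.PosSemidef) (hG' : G'.PosSemidef) (hp : (G + D).PosSemidef) (hm : (G - D).PosSemidef)
    (hp' : (G' + D').PosSemidef) (hm' : (G' - D').PosSemidef) (R E : Matrix ι ι ℝ) :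
    os w G G' R ≤ (1 / 2) * (os w (G + D) (G' + D') (R + E) +
      os w (G - D) (G' - D') (R - E)) := by
  unfold os
  have h1 := KS_posDef hw hp hp'
  have h2 := KS_posDef hw hm hm'
  rw [KS_add] at h1 ⊢
  rw [KS_sub] at h2 ⊢
  exact frac_conv (KS_posDef hw hG hG') h1 h2 (vc R) (vc E)

section diag

/-- the eigenbasis form of the sum weight -/
theorem os_diag {w : ℝ} {G G' U U' R : Matrix ι ι ℝ} {d d' : ι → ℝ}
    (hU : Uᵀ * U = 1) (hU2 : U * Uᵀ = 1) (hU' : U'ᵀ * U' = 1) (hU2' : U' * U'ᵀ = 1)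
    (hG : G = U * diagonal d * Uᵀ) (hG' : G' = U' * diagonal d' * U'ᵀ)
    (hpos : ∀ i j, 0 < w + d i + d' j) :
    os w G G' R = ∑ i, ∑ j, (Uᵀ * R * U') i j ^ 2 / (w + d i + d' j) := by
  set W : Matrix (ι × ι) (ι × ι) ℝ := U ⊗ₖ U' with hW
  set Δ : ι × ι → ℝ := fun q => w + d q.1 + d' q.2 with hΔ
  have hΔ0 : ∀ q, Δ q ≠ 0 := fun q => (hpos q.1 q.2).ne'
  have hWt : Wᵀ = Uᵀ ⊗ₖ U'ᵀ := by
    ext q q'
    simp [hW, kroneckerMap_apply]
  have hWW : Wᵀ * W = 1 := by
    rw [hWt, hW, ← mul_kronecker_mul, hU, hU', one_kronecker_one]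
  have hWW' : W * Wᵀ = 1 := by
    rw [hWt, hW, ← mul_kronecker_mul, hU2, hU2', one_kronecker_one]
  have hD : diagonal Δ = w • (1 : Matrix (ι × ι) (ι × ι) ℝ) +
      diagonal d ⊗ₖ (1 : Matrix ι ι ℝ) + (1 : Matrix ι ι ℝ) ⊗ₖ diagonal d' := by
    ext q q'
    by_cases hq : q = q'
    · subst hq
      simp [hΔ, kroneckerMap_apply]
    · have : ¬ (q.1 = q'.1 ∧ q.2 = q'.2) := fun h => hq (Prod.ext h.1 h.2)
      simp only [diagonal_apply_ne _ hq, Matrix.add_apply, Matrix.smul_apply, one_apply_ne hq, smul_zero,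
        kroneckerMap_apply, zero_add]
      by_cases h1 : q.1 = q'.1
      · have h2 : q.2 ≠ q'.2 := fun h => this ⟨h1, h⟩
        rw [one_apply_ne h2, diagonal_apply_ne _ h2, mul_zero, mul_zero, add_zero]
      · rw [one_apply_ne h1, diagonal_apply_ne _ h1, zero_mul, zero_mul, add_zero]
  have hK : KS w G G' = W * diagonal Δ * Wᵀ := by
    rw [hD, Matrix.mul_add, Matrix.mul_add, Matrix.add_mul, Matrix.add_mul]
    unfold KS
    have e1 : W * (w • (1 : Matrix (ι × ι) (ι × ι) ℝ)) * Wᵀ = w • 1 := by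
      rw [Matrix.mul_smul, Matrix.mul_one, Matrix.smul_mul, hWW']
    have e2 : W * (diagonal d ⊗ₖ (1 : Matrix ι ι ℝ)) * Wᵀ = G ⊗ₖ 1 := by
      rw [hWt, hW, ← mul_kronecker_mul, ← mul_kronecker_mul, Matrix.mul_one, hU2', ← hG]
    have e3 : W * ((1 : Matrix ι ι ℝ) ⊗ₖ diagonal d') * Wᵀ = 1 ⊗ₖ G' := by
      rw [hWt, hW, ← mul_kronecker_mul, ← mul_kronecker_mul, Matrix.mul_one, hU2, ← hG']
    rw [e1, e2, e3]
  have hKi : (KS w G G')⁻¹ = W * diagonal (fun q => (Δ q)⁻¹) * Wᵀ := by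
    apply inv_eq_right_inv
    rw [hK]
    calc W * diagonal Δ * Wᵀ * (W * diagonal (fun q => (Δ q)⁻¹) * Wᵀ)
        = W * diagonal Δ * (Wᵀ * W) * diagonal (fun q => (Δ q)⁻¹) * Wᵀ := by
          simp only [Matrix.mul_assoc]
      _ = 1 := by
        rw [hWW, Matrix.mul_one, Matrix.mul_assoc W, diagonal_mul_diagonal]
        have : (fun q => Δ q * (Δ q)⁻¹) = fun _ => (1 : ℝ) := by
          ext q
          exact mul_inv_cancel₀ (hΔ0 q)
        rw [this, diagonal_one, Matrix.mul_one, hWW']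
  have hv : Wᵀ *ᵥ vc R = vc (Uᵀ * R * U') := by
    ext q
    obtain ⟨i, j⟩ := q
    rw [hWt]
    simp only [mulVec, dotProduct, kroneckerMap_apply, vc, Fintype.sum_prod_type, Matrix.mul_apply,
      transpose_apply, sum_mul]
    rw [sum_comm]
    exact sum_congr rfl fun b _ => sum_congr rfl fun a _ => by ring
  unfold os
  rw [hKi, ← mulVec_mulVec, ← mulVec_mulVec, dot_mulVec W, hv]
  simp only [dotProduct, mulVec_diagonal, Fintype.sum_prod_type, vc, hΔ]
  exact sum_congr rfl fun i _ => sum_congr rfl fun j _ => by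
    rw [div_eq_mul_inv]
    ring

theorem inv_diag {w : ℝ} {G U : Matrix ι ι ℝ} {d : ι → ℝ}
    (hU : Uᵀ * U = 1) (hU2 : U * Uᵀ = 1) (hG : G = U * diagonal d * Uᵀ)
    (hpos : ∀ i, 0 < w + d i) :
    (w • (1 : Matrix ι ι ℝ) + G)⁻¹ = U * diagonal (fun i => (w + d i)⁻¹) * Uᵀ := by
  have hK : w • (1 : Matrix ι ι ℝ) + G = U * diagonal (fun i => w + d i) * Uᵀ := by
    have : diagonal (fun i => w + d i) = w • (1 : Matrix ι ι ℝ) + diagonal d := by
      rw [← diagonal_one, ← diagonal_smul, diagonal_add]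
      congr 1
      ext i
      simp
    rw [this, Matrix.mul_add, Matrix.add_mul, Matrix.mul_smul, Matrix.mul_one, Matrix.smul_mul,
      hU2, ← hG]
  apply inv_eq_right_inv
  rw [hK]
  calc U * diagonal (fun i => w + d i) * Uᵀ * (U * diagonal (fun i => (w + d i)⁻¹) * Uᵀ)
      = U * diagonal (fun i => w + d i) * (Uᵀ * U) * diagonal (fun i => (w + d i)⁻¹) * Uᵀ := by
        simp only [Matrix.mul_assoc]
    _ = 1 := by
      rw [hU, Matrix.mul_one, Matrix.mul_assoc U, diagonal_mul_diagonal]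
      have : (fun i => (w + d i) * (w + d i)⁻¹) = fun _ => (1 : ℝ) := by
        ext i
        exact mul_inv_cancel₀ (hpos i).ne'
      rw [this, diagonal_one, Matrix.mul_one, hU2]

/-- the eigenbasis form of the product weight -/
theorem op_diag {w : ℝ} {G G' U U' R : Matrix ι ι ℝ} {d d' : ι → ℝ}
    (hU : Uᵀ * U = 1) (hU2 : U * Uᵀ = 1) (hU' : U'ᵀ * U' = 1) (hU2' : U' * U'ᵀ = 1)
    (hG : G = U * diagonal d * Uᵀ) (hG' : G' = U' * diagonal d' * U'ᵀ)
    (hpos : ∀ i, 0 < w + d i) (hpos' : ∀ i, 0 < w + d' i) :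
    op w G G' R = ∑ i, ∑ j, (Uᵀ * R * U') i j ^ 2 / ((w + d i) * (w + d' j)) := by
  set S : Matrix ι ι ℝ := Uᵀ * R * U' with hS
  have hSt : Sᵀ = U'ᵀ * Rᵀ * U := by
    rw [hS, transpose_mul, transpose_mul, transpose_transpose, Matrix.mul_assoc]
  unfold op
  rw [inv_diag hU hU2 hG hpos, inv_diag hU' hU2' hG' hpos']
  calc (Rᵀ * (U * diagonal (fun i => (w + d i)⁻¹) * Uᵀ) * R *
        (U' * diagonal (fun i => (w + d' i)⁻¹) * U'ᵀ)).trace
      = ((Rᵀ * U * diagonal (fun i => (w + d i)⁻¹) * S * diagonal (fun i => (w + d' i)⁻¹)) *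
        U'ᵀ).trace := by rw [hS]; simp only [Matrix.mul_assoc]
    _ = (U'ᵀ * (Rᵀ * U * diagonal (fun i => (w + d i)⁻¹) * S *
        diagonal (fun i => (w + d' i)⁻¹))).trace := trace_mul_comm _ _
    _ = (Sᵀ * diagonal (fun i => (w + d i)⁻¹) * S * diagonal (fun i => (w + d' i)⁻¹)).trace := by
        rw [hSt]; simp only [Matrix.mul_assoc]
    _ = ∑ i, ∑ j, S i j ^ 2 / ((w + d i) * (w + d' j)) := by
        simp only [trace, diag_apply, Matrix.mul_diagonal]
        simp only [Matrix.mul_apply (N := S), Matrix.mul_diagonal, transpose_apply, sum_mul]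
        rw [sum_comm]
        refine sum_congr rfl fun i _ => sum_congr rfl fun j _ => ?_
        rw [div_eq_mul_inv, mul_inv]
        ring

end diag

section family

variable {X Y : Type*} [Fintype X] [DecidableEq X] [Fintype Y]

/-- the Gram matrix of all the copies in their own eigenbases, squared entrywise -/
theorem gram_sq_psd (β : Matrix (X × ι) Y ℝ) :
    (Matrix.of fun a b : X × ι => (∑ y, β a y * β b y) ^ 2).PosSemidef := by
  have h1 : (β * βᴴ).PosSemidef := posSemidef_self_mul_conjTranspose β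
  have h2 := h1.hadamard h1
  have h3 : (β * βᴴ) ⊙ (β * βᴴ) = Matrix.of fun a b : X × ι => (∑ y, β a y * β b y) ^ 2 := by
    ext a b
    simp only [hadamard_apply, Matrix.mul_apply, conjTranspose_apply, star_trivial, of_apply, sq]
  rwa [h3] at h2

/-- all the signs at once: the double sum over the copies is a quadratic form -/
theorem dbl {c : X → ℝ} {w : ℝ} (hw : 0 < w) {B : X → Matrix ι Y ℝ}
    {G : X → Matrix ι ι ℝ} (hG : ∀ x, (G x).PosSemidef) :
    0 ≤ ∑ x, ∑ x', c x * c x' * os w (G x) (G x') (B x * (B x')ᵀ) ∧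
    ∑ x, ∑ x', c x * c x' * op w (G x) (G x') (B x * (B x')ᵀ) ≤
      w⁻¹ * ∑ x, ∑ x', c x * c x' * os w (G x) (G x') (B x * (B x')ᵀ) := by
  choose U g hU hU2 hGU using fun x => exists_diag (hG x).isHermitian
  have hg : ∀ x i, 0 ≤ g x i := by
    intro x i
    have h1 := quad_nonneg (hG x) (U x *ᵥ Pi.single i 1)
    have h2 : (U x *ᵥ Pi.single i (1 : ℝ)) ⬝ᵥ G x *ᵥ (U x *ᵥ Pi.single i (1 : ℝ)) = g x i := by
      conv_lhs => rw [hGU x]
      rw [mulVec_mulVec, Matrix.mul_assoc, Matrix.mul_assoc, hU x, Matrix.mul_one,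
        ← mulVec_mulVec, dot_mulVec (U x), mulVec_mulVec, hU x, one_mulVec]
      simp [dotProduct, mulVec_diagonal, Pi.single_apply]
    rw [h2] at h1
    exact h1
  set β : Matrix (X × ι) Y ℝ := Matrix.of fun a y => ((U a.1)ᵀ * B a.1) a.2 y with hβ
  set M : Matrix (X × ι) (X × ι) ℝ := Matrix.of fun a b => (∑ y, β a y * β b y) ^ 2 with hM
  have hMp : M.PosSemidef := gram_sq_psd β
  have hent : ∀ x x' i j, ((U x)ᵀ * (B x * (B x')ᵀ) * U x') i j ^ 2 = M (x, i) (x', j) := by
    intro x x' i j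
    have h1 : (U x)ᵀ * (B x * (B x')ᵀ) * U x' = ((U x)ᵀ * B x) * ((U x')ᵀ * B x')ᵀ := by
      rw [transpose_mul, transpose_transpose]
      simp only [Matrix.mul_assoc]
    rw [h1]
    simp only [hM, hβ, of_apply, Matrix.mul_apply (M := (U x)ᵀ * B x), transpose_apply]
  have hos : ∀ x x', os w (G x) (G x') (B x * (B x')ᵀ) =
      ∑ i, ∑ j, M (x, i) (x', j) / (w + g x i + g x' j) := by
    intro x x'
    rw [os_diag (hU x) (hU2 x) (hU x') (hU2 x') (hGU x) (hGU x')
      fun i j => by linarith [hg x i, hg x' j]]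
    simp only [hent]
  have hop : ∀ x x', op w (G x) (G x') (B x * (B x')ᵀ) =
      ∑ i, ∑ j, M (x, i) (x', j) / ((w + g x i) * (w + g x' j)) := by
    intro x x'
    rw [op_diag (hU x) (hU2 x) (hU x') (hU2 x') (hGU x) (hGU x')
      (fun i => by linarith [hg x i]) (fun j => by linarith [hg x' j])]
    simp only [hent]
  set p : X × ι → ℝ := fun a => w / 2 + g a.1 a.2 with hp
  have hp0 : ∀ a, 0 < p a := fun a => by
    have := hg a.1 a.2
    simp only [hp]
    linarith
  have hL := lyap_psd hMp hp0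
  have form : ∀ v : X × ι → ℝ, 0 ≤ ∑ x, ∑ x', ∑ i, ∑ j,
      v (x, i) * v (x', j) * (M (x, i) (x', j) / (w + g x i + g x' j)) := by
    intro v
    have h1 := quad_nonneg hL v
    rw [quad_sum] at h1
    simp only [Fintype.sum_prod_type, of_apply] at h1
    refine h1.trans_eq ?_
    refine sum_congr rfl fun x _ => ?_
    rw [sum_comm]
    refine sum_congr rfl fun x' _ => sum_congr rfl fun i _ => sum_congr rfl fun j _ => ?_
    congr 2
    simp only [hp]
    ring
  constructor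
  · have h1 := form fun a => c a.1
    refine h1.trans_eq (sum_congr rfl fun x _ => sum_congr rfl fun x' _ => ?_)
    rw [hos, mul_sum]
    exact sum_congr rfl fun i _ => by rw [mul_sum]
  · have h1 := form fun a => c a.1 * (g a.1 a.2 / (w + g a.1 a.2))
    have h2 : ∑ x, ∑ x', ∑ i, ∑ j, c x * (g x i / (w + g x i)) * (c x' * (g x' j / (w + g x' j))) *
        (M (x, i) (x', j) / (w + g x i + g x' j)) =
        ∑ x, ∑ x', c x * c x' * os w (G x) (G x') (B x * (B x')ᵀ) -
        w * ∑ x, ∑ x', c x * c x' * op w (G x) (G x') (B x * (B x')ᵀ) := by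
      rw [mul_sum, ← sum_sub_distrib]
      refine sum_congr rfl fun x _ => ?_
      rw [mul_sum, ← sum_sub_distrib]
      refine sum_congr rfl fun x' _ => ?_
      rw [hos, hop]
      simp only [mul_sum]
      rw [← sum_sub_distrib]
      refine sum_congr rfl fun i _ => ?_
      rw [← sum_sub_distrib]
      refine sum_congr rfl fun j _ => ?_
      have a1 : w + g x i ≠ 0 := by have := hg x i; positivity
      have a2 : w + g x' j ≠ 0 := by have := hg x' j; positivity
      have a3 : w + g x i + g x' j ≠ 0 := by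
        have := hg x i
        have := hg x' j
        positivity
      field_simp
      ring
    rw [h2] at h1
    rw [inv_mul_eq_div, le_div_iff₀ hw]
    linarith

/-- **Monotone in the outer cell**: nonnegative for all the signs. -/
theorem os_nonneg {c : X → ℝ} {w : ℝ} (hw : 0 < w) {B : X → Matrix ι Y ℝ}
    {G : X → Matrix ι ι ℝ} (hG : ∀ x, (G x).PosSemidef) :
    0 ≤ ∑ x, ∑ x', c x * c x' * os w (G x) (G x') (B x * (B x')ᵀ) := (dbl hw hG).1

/-- **The product weight is dominated**, for all the signs. -/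
theorem dom {c : X → ℝ} {w : ℝ} (hw : 0 < w) {B : X → Matrix ι Y ℝ}
    {G : X → Matrix ι ι ℝ} (hG : ∀ x, (G x).PosSemidef) :
    ∑ x, ∑ x', c x * c x' * op w (G x) (G x') (B x * (B x')ᵀ) ≤
      w⁻¹ * ∑ x, ∑ x', c x * c x' * os w (G x) (G x') (B x * (B x')ᵀ) := (dbl hw hG).2

/-- the product weight is a sum of squares over the pairs of shifts -/
theorem op_eq {c : X → ℝ} {w : ℝ} (B : X → Matrix ι Y ℝ)
    {G : X → Matrix ι ι ℝ} (hG : ∀ x, (G x).PosSemidef) :
    ∑ x, ∑ x', c x * c x' * op w (G x) (G x') (B x * (B x')ᵀ) =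
      ∑ y, ∑ y', (∑ x, c x * ((B x)ᵀ * (w • (1 : Matrix ι ι ℝ) + G x)⁻¹ * B x) y y') ^ 2 := by
  set Q : X → Matrix Y Y ℝ := fun x => (B x)ᵀ * (w • (1 : Matrix ι ι ℝ) + G x)⁻¹ * B x with hQ
  have hsym : ∀ x, (Q x)ᵀ = Q x := fun x => by
    have h1 : ((w • (1 : Matrix ι ι ℝ) + G x)⁻¹)ᵀ = (w • (1 : Matrix ι ι ℝ) + G x)⁻¹ := by
      rw [transpose_nonsing_inv]
      congr 1
      rw [transpose_add, transpose_smul, transpose_one, tr_eq (hG x).isHermitian]
    rw [hQ]
    simp only [transpose_mul, transpose_transpose, h1, Matrix.mul_assoc]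
  have hop : ∀ x x', op w (G x) (G x') (B x * (B x')ᵀ) = ∑ y, ∑ y', Q x y y' * Q x' y y' := by
    intro x x'
    have h1 : op w (G x) (G x') (B x * (B x')ᵀ) = (Q x * Q x').trace := by
      unfold op
      rw [transpose_mul, transpose_transpose]
      calc (B x' * (B x)ᵀ * (w • (1 : Matrix ι ι ℝ) + G x)⁻¹ * (B x * (B x')ᵀ) *
            (w • (1 : Matrix ι ι ℝ) + G x')⁻¹).trace
          = (B x' * ((B x)ᵀ * (w • (1 : Matrix ι ι ℝ) + G x)⁻¹ * B x * ((B x')ᵀ *
            (w • (1 : Matrix ι ι ℝ) + G x')⁻¹))).trace := by simp only [Matrix.mul_assoc]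
        _ = ((B x)ᵀ * (w • (1 : Matrix ι ι ℝ) + G x)⁻¹ * B x * ((B x')ᵀ *
            (w • (1 : Matrix ι ι ℝ) + G x')⁻¹) * B x').trace := trace_mul_comm _ _
        _ = (Q x * Q x').trace := by simp only [hQ, Matrix.mul_assoc]
    rw [h1, trace]
    simp only [diag_apply, Matrix.mul_apply]
    refine sum_congr rfl fun y _ => sum_congr rfl fun y' _ => ?_
    have := congrFun (congrFun (hsym x') y) y'
    rw [transpose_apply] at this
    rw [this]
  simp only [hop, mul_sum]
  calc ∑ x, ∑ x', ∑ y, ∑ y', c x * c x' * (Q x y y' * Q x' y y')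
      = ∑ x, ∑ y, ∑ y', ∑ x', c x * c x' * (Q x y y' * Q x' y y') := by
        refine sum_congr rfl fun x _ => ?_
        rw [sum_comm]
        refine sum_congr rfl fun y _ => ?_
        rw [sum_comm]
    _ = ∑ y, ∑ y', ∑ x, ∑ x', c x * c x' * (Q x y y' * Q x' y y') := by
        rw [sum_comm]
        refine sum_congr rfl fun y _ => ?_
        rw [sum_comm]
    _ = ∑ y, ∑ y', (∑ x, c x * Q x y y') ^ 2 := by
        refine sum_congr rfl fun y _ => sum_congr rfl fun y' _ => ?_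
        rw [sq, sum_mul_sum]
        exact sum_congr rfl fun x _ => sum_congr rfl fun x' _ => by ring

/-- **The cross term.** -/
theorem cross_le {c : X → ℝ} {w : ℝ} (hw : 0 < w) (B : X → Matrix ι Y ℝ)
    {G : X → Matrix ι ι ℝ} (hG : ∀ x, (G x).PosSemidef) (α : Y → Y → ℝ) :
    ∑ x, c x * ∑ y, ∑ y', α y y' * ((B x)ᵀ * (w • (1 : Matrix ι ι ℝ) + G x)⁻¹ * B x) y y' ≤
      Real.sqrt (∑ y, ∑ y', α y y' ^ 2) *
        Real.sqrt (w⁻¹ * ∑ x, ∑ x', c x * c x' * os w (G x) (G x') (B x * (B x')ᵀ)) := by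
  set Q : X → Matrix Y Y ℝ := fun x => (B x)ᵀ * (w • (1 : Matrix ι ι ℝ) + G x)⁻¹ * B x with hQ
  have h1 : ∑ x, c x * ∑ y, ∑ y', α y y' * Q x y y' =
      ∑ q : Y × Y, α q.1 q.2 * ∑ x, c x * Q x q.1 q.2 := by
    rw [Fintype.sum_prod_type]
    simp only [mul_sum]
    calc ∑ x, ∑ y, ∑ y', c x * (α y y' * Q x y y')
        = ∑ y, ∑ x, ∑ y', c x * (α y y' * Q x y y') := sum_comm
      _ = ∑ y, ∑ y', ∑ x, α y y' * (c x * Q x y y') := by
        refine sum_congr rfl fun y _ => ?_
        rw [sum_comm]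
        exact sum_congr rfl fun y' _ => sum_congr rfl fun x _ => by ring
  rw [h1]
  refine (Real.sum_mul_le_sqrt_mul_sqrt _ _ _).trans ?_
  rw [Fintype.sum_prod_type, Fintype.sum_prod_type]
  refine mul_le_mul_of_nonneg_left (Real.sqrt_le_sqrt ?_) (Real.sqrt_nonneg _)
  have h2 := dom (c := c) hw (B := B) hG
  rw [op_eq B hG] at h2
  exact h2

end family

end

end Vale.Agent.P141.H383
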